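import Crest.Agent.X261.Law.Main

/-!
# Row 261, package LAW (helper64), file `Fld`: the locally uniform form of the law
-/

set_option autoImplicit false
set_option linter.unusedSectionVars false

open Set Filter Topology

namespace Crest.Agent.X261.Law

open Crest.Agent.R275.Geo
open Crest.Agent.R281.Kp_487 (KP)
open Crest.Agent.X261.BT Crest.Agent.X261.Pole
open Crest.Agent.X261.Pole2 (jd k1 k1_pos TB Vol)

noncomputable section

theorem mc_le_kc {k : ℝ} (hk : 0 ≤ k) (p : ℕ) (C : ℝ) {ε : ℝ} (hε : 0 < ε) :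
    ∀ᶠ c in atTop, mc k p c * C ≤ ε * kc k p c := by
  filter_upwards [eventually_gt_atTop 0, eventually_ge_atTop ((p + 1) * C / ε)] with c h0 h1
  rw [div_le_iff₀ hε] at h1
  have := mul_le_mul_of_nonneg_left h1 (show 0 ≤ k * c ^ p by positivity)
  unfold mc kc
  rw [pow_succ]
  linarith

variable {n p : ℕ} {M : Type} [TopologicalSpace M] {A : Atl n M} [MeasurableSpace M] [BorelSpace M]
  [Countable A.ι] [T2Space M] {H : KP A} {T : Set M} {π : M → Cn p} {V : ℝ}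

/-- the field `law` of `EnP.Dat` -/
theorem field (hH : H.Pos) (hS : Slow H) (hT : TB A T π) (hV : Vol H T π V) (hV0 : 0 ≤ V)
    (hp : 1 ≤ p) {k : ℝ} (hk : k = V * k1 p) {X X' : M → PF (lsOf hH hS)} {lam lam' : M → ℝ}
    {S : Set M} {x : M} {C : ℝ} {B B' : M → Cn p →L[ℂ] Cn p}
    (h : ∀ᶠ z in 𝓝 x, z ∉ S → z ∈ T ∧ jd (B z) ≠ 0 ∧ jd (B' z) ≠ 0 ∧ (X z).Asy k p ∧
      (X' z).Asy k p ∧ Shp H T π (π z) (B z) C (X z).F ∧ Shp H T π (π z) (B' z) C (X' z).F ∧
      lam z - lam' z = Real.log (jd (B' z)) - Real.log (jd (B z))) {ε : ℝ} (hε : 0 < ε) :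
    ∀ᶠ q : ℝ × M in atTop ×ˢ 𝓝 x, q.2 ∉ S →
      (X q.2).dl k p q.1 0 - kc k p q.1 * lam q.2 ≤
        (X' q.2).dl k p q.1 0 - kc k p q.1 * lam' q.2 + ε * kc k p q.1 := by
  subst hk
  filter_upwards [((mc_le_kc (mul_nonneg hV0 (k1_pos hp).le) p (C + C) hε).and
    (eventually_gt_atTop 0)).prod_mk h] with q hq hS'
  obtain ⟨h1, h2, h3, h4, h5, h6, h7, h8⟩ := hq.2 hS'
  have := law hH hS hT hV hp (hT.lt_one h1) h3 h2 h5 h4 h7 h6 hq.1.2 (QQ.zero (pos_semi hH))
  rw [← h8] at this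
  linarith [hq.1.1]

/-- the constant of the asymptotics is unique -/
theorem asy_unique {M : Type*} {L : LS M} {Y : PF L} {k k' : ℝ} (h : Y.Asy k p)
    (h' : Y.Asy k' p) : k = k' := by
  have e := tendsto_nhds_unique (h.tendsto_diff one_pos L.zero_mem 1 0)
    (h'.tendsto_diff one_pos L.zero_mem 1 0)
  simp only [mc, one_pow, mul_one, sub_zero] at e
  exact mul_left_cancel₀ (by positivity) e

end

end Crest.Agent.X261.Law
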