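import Crest.Agent.X261.Law.Mod

/-!
# Row 261, package LAW (helper64), file `Lin`: diagonal paths between two shapes
-/

set_option autoImplicit false

open Set Filter Topology Complex MeasureTheory Metric
open scoped ContDiff Matrix ComplexConjugate InnerProductSpace

namespace Crest.Agent.X261.Law

open Crest.Agent.R275.Geo
open Crest.Agent.R273.Map_835 (mt)
open Crest.Agent.X261.Pole2 (jd)

noncomputable section

variable {p : ℕ}

/-- the diagonal map with entries `e^{d i / 2}` -/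
def dg (d : Fin p → ℝ) : Cn p →L[ℂ] Cn p :=
  LinearMap.toContinuousLinearMap
    { toFun := fun w => WithLp.toLp 2 fun i => ((Real.exp (d i / 2) : ℝ) : ℂ) * w i
      map_add' := fun u v => by ext i; simp [mul_add]
      map_smul' := fun a u => by ext i; simp [mul_left_comm] }

theorem dg_apply (d : Fin p → ℝ) (w : Cn p) (i : Fin p) :
    dg d w i = ((Real.exp (d i / 2) : ℝ) : ℂ) * w i := rfl

theorem nsq_dg_i (d : Fin p → ℝ) (w : Cn p) (i : Fin p) :
    ‖dg d w i‖ ^ 2 = Real.exp (d i) * ‖w i‖ ^ 2 := by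
  rw [dg_apply, norm_mul, mul_pow, Complex.norm_real, Real.norm_eq_abs, sq_abs, ← Real.exp_nat_mul]
  congr 2
  push_cast
  ring

theorem nsq_dg (d : Fin p → ℝ) (w : Cn p) :
    ‖dg d w‖ ^ 2 = ∑ i, Real.exp (d i) * ‖w i‖ ^ 2 := by
  rw [EuclideanSpace.norm_sq_eq]
  exact Finset.sum_congr rfl fun i _ => nsq_dg_i d w i

theorem dg_dg (d e : Fin p → ℝ) (w : Cn p) : dg d (dg e w) = dg (fun i => d i + e i) w := by
  ext i
  simp only [dg_apply]
  rw [add_div, Real.exp_add]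
  push_cast
  ring

theorem nsq_dg_le {d e : Fin p → ℝ} {m : ℝ} (h : ∀ i, d i ≤ m + e i) (w : Cn p) :
    ‖dg d w‖ ^ 2 ≤ Real.exp m * ‖dg e w‖ ^ 2 := by
  rw [nsq_dg, nsq_dg, Finset.mul_sum]
  refine Finset.sum_le_sum fun i _ => ?_
  rw [← mul_assoc, ← Real.exp_add]
  exact mul_le_mul_of_nonneg_right (Real.exp_le_exp.2 (h i)) (by positivity)

theorem nsq_dg_add (d : Fin p → ℝ) (m : ℝ) (w : Cn p) :
    ‖dg (fun i => m + d i) w‖ ^ 2 = Real.exp m * ‖dg d w‖ ^ 2 := by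
  rw [nsq_dg, nsq_dg, Finset.mul_sum]
  refine Finset.sum_congr rfl fun i _ => ?_
  rw [← mul_assoc, ← Real.exp_add]

theorem nsq_dg_const (m : ℝ) (w : Cn p) : ‖dg (fun _ => m) w‖ ^ 2 = Real.exp m * ‖w‖ ^ 2 := by
  rw [nsq_dg, EuclideanSpace.norm_sq_eq, Finset.mul_sum]

theorem jd_eq (A : Cn p →L[ℂ] Cn p) : jd A = ‖LinearMap.det (A : Cn p →ₗ[ℂ] Cn p)‖ ^ 2 := by
  rw [jd, Complex.normSq_eq_norm_sq,
    ← LinearMap.det_toMatrix (EuclideanSpace.basisFun (Fin p) ℂ).toBasis]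
  congr 3

theorem jd_nonneg (A : Cn p →L[ℂ] Cn p) : 0 ≤ jd A := Complex.normSq_nonneg _

theorem jd_comp (A B : Cn p →L[ℂ] Cn p) : jd (A ∘L B) = jd A * jd B := by
  rw [jd_eq, jd_eq, jd_eq, ContinuousLinearMap.toLinearMap_comp, LinearMap.det_comp, norm_mul, mul_pow]

theorem jd_ne_iff {A : Cn p →L[ℂ] Cn p} : jd A ≠ 0 ↔ ∀ w, A w = 0 → w = 0 := by
  rw [jd_eq, Ne, pow_eq_zero_iff two_ne_zero, norm_eq_zero, LinearMap.det_eq_zero_iff_ker_ne_bot,
    not_not, LinearMap.ker_eq_bot']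
  rfl

theorem exists_low {A : Cn p →L[ℂ] Cn p} (hA : jd A ≠ 0) :
    ∃ κ > (0 : ℝ), ∀ w, κ * ‖w‖ ^ 2 ≤ ‖A w‖ ^ 2 := by
  obtain ⟨K, hK, h⟩ := (A : Cn p →ₗ[ℂ] Cn p).exists_antilipschitzWith
    (LinearMap.ker_eq_bot'.2 (jd_ne_iff.1 hA))
  have hK' : (0 : ℝ) < K := hK
  refine ⟨1 / K ^ 2, by positivity, fun w => ?_⟩
  have h1 : ‖w‖ ≤ K * ‖A w‖ := by simpa using h.le_mul_dist w 0
  have h2 := pow_le_pow_left₀ (norm_nonneg _) h1 2
  rw [one_div_mul_eq_div, div_le_iff₀ (by positivity)]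
  linarith [mul_pow (K : ℝ) ‖A w‖ 2]

/-- simultaneous diagonalisation of two shapes -/
theorem exists_diag {B B' : Cn p →L[ℂ] Cn p} (hB : jd B ≠ 0) (hB' : jd B' ≠ 0) :
    ∃ (U : Cn p →L[ℂ] Cn p) (l : Fin p → ℝ), (∀ w, ‖U w‖ ^ 2 = ‖B w‖ ^ 2) ∧
      (∀ w, ‖dg (fun i => -l i) (U w)‖ ^ 2 = ‖B' w‖ ^ 2) ∧
      ∑ i, l i = Real.log (jd B) - Real.log (jd B') := by
  have hn : Module.finrank ℂ (Cn p) = p := finrank_euclideanSpace_fin
  let e : Cn p ≃ₗ[ℂ] Cn p := LinearEquiv.ofInjectiveEndo (B : Cn p →ₗ[ℂ] Cn p)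
    (LinearMap.ker_eq_bot.1 (LinearMap.ker_eq_bot'.2 (jd_ne_iff.1 hB)))
  have he : ∀ w, e w = B w := fun _ => rfl
  let G : Cn p →ₗ[ℂ] Cn p := (B' : Cn p →ₗ[ℂ] Cn p) ∘ₗ e.symm
  have hG : ∀ w, G (B w) = B' w := fun w => by
    show B' (e.symm (B w)) = _
    rw [← he, e.symm_apply_apply]
  have hS := G.isSymmetric_adjoint_comp_self
  set b := hS.eigenvectorBasis hn with hb
  set σ := hS.eigenvalues hn with hσ
  have h1 : ∀ u, ‖G u‖ ^ 2 = ∑ i, σ i * ‖b.repr u i‖ ^ 2 := fun u => by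
    have e1 : ⟪u, (LinearMap.adjoint G ∘ₗ G) u⟫_ℂ = ((‖G u‖ ^ 2 : ℝ) : ℂ) := by
      rw [LinearMap.comp_apply, LinearMap.adjoint_inner_right, inner_self_eq_norm_sq_to_K]
      simp
    rw [← b.repr.inner_map_map, PiLp.inner_apply] at e1
    have e2 : ∀ i, ⟪b.repr u i, b.repr ((LinearMap.adjoint G ∘ₗ G) u) i⟫_ℂ =
        ((σ i * ‖b.repr u i‖ ^ 2 : ℝ) : ℂ) := fun i => by
      rw [hb, hS.eigenvectorBasis_apply_self_apply hn, ← smul_eq_mul, inner_smul_right,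
        inner_self_eq_norm_sq_to_K]
      simp [hσ]
    simp only [e2] at e1
    exact_mod_cast e1.symm
  have h2 : ∀ i, 0 < σ i := fun i => by
    have e1 := h1 (b i)
    rw [b.repr_self, Finset.sum_eq_single i (fun j _ hj => by simp [hj])
      (by simp)] at e1
    simp only [PiLp.single_apply, if_true, norm_one, one_pow, mul_one] at e1
    rw [← e1]
    refine pow_pos (norm_pos_iff.2 fun h0 => ?_) 2
    have e2 : e.symm (b i) = 0 := jd_ne_iff.1 hB' _ h0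
    have e3 : b i = 0 := by simpa using congrArg e e2
    simpa [e3] using b.orthonormal.1 i
  have h3 : jd B' = (∏ i, σ i) * jd B := by
    have e1 : (B' : Cn p →ₗ[ℂ] Cn p) = G ∘ₗ (B : Cn p →ₗ[ℂ] Cn p) :=
      LinearMap.ext fun w => (hG w).symm
    have e2 := G.normDet_sq
    rw [hS.det_eq_prod_eigenvalues hn, LinearMap.normDet_eq_norm_det] at e2
    have e3 : ‖LinearMap.det G‖ ^ 2 = ∏ i, σ i := by exact_mod_cast e2
    rw [jd_eq, jd_eq, e1, LinearMap.det_comp, norm_mul, mul_pow, e3]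
  refine ⟨b.repr.toContinuousLinearEquiv ∘L B, fun i => -Real.log (σ i), fun w => ?_,
    fun w => ?_, ?_⟩
  · exact congrArg (· ^ 2) (b.repr.norm_map (B w))
  · rw [nsq_dg, ← hG, h1]
    refine Finset.sum_congr rfl fun i _ => ?_
    rw [neg_neg, Real.exp_log (h2 i)]
    rfl
  · rw [h3, Real.log_mul (Finset.prod_pos fun i _ => h2 i).ne' hB,
      Real.log_prod fun i _ => (h2 i).ne', Finset.sum_neg_distrib]
    ring

/-- the lower order term is small on thin tubes -/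
theorem small (hp : 1 ≤ p) {K : ℝ} (hK : 0 ≤ K) (y : Cn p) {η : ℝ} (hη : 0 < η) :
    ∃ r > (0 : ℝ), ∀ (g Λ : Cn p → ℝ) (b : ℝ), (∀ w, 0 ≤ g w) → (∀ w, g w ≤ b) →
      (∀ w, r ≤ ‖w - y‖ → g w = 0) → (∀ w, 0 ≤ Λ w) → (∀ w, Λ w * ‖w - y‖ ^ 2 ≤ K) →
      ∫ w, g w * (1 + Λ w) ^ (p - 1) ≤ b * η := by
  have : Nonempty (Fin p) := ⟨⟨0, hp⟩⟩
  have hd : Module.finrank ℝ (Cn p) = 2 * p := by
    rw [finrank_real_of_complex, finrank_euclideanSpace_fin]
  set ψ : Cn p → ℝ := fun w => (1 + K / ‖w‖ ^ 2) ^ (p - 1) with hψ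
  have hψ0 : ∀ w, 0 ≤ ψ w := fun w => by positivity
  have hm : Measurable ψ := by fun_prop
  have h0 : ∀ᵐ w : Cn p, w ≠ 0 := by simp [ae_iff]
  have h1 : IntegrableOn ψ (ball 0 1) := by
    refine integrableOn_ball_of_norm_le_rpow (C := (1 + K) ^ (p - 1))
      (α := ((2 * (p - 1) : ℕ) : ℝ)) (by omega) (by rw [hd]; exact_mod_cast (by omega)) ?_
      hm.aestronglyMeasurable
    filter_upwards [ae_restrict_of_ae h0, ae_restrict_mem measurableSet_ball] with w e1 e2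
    rw [mem_ball_zero_iff] at e2
    have e3 : 0 < ‖w‖ ^ 2 := by positivity
    rw [Real.norm_of_nonneg (hψ0 w), Real.rpow_neg (norm_nonneg _), Real.rpow_natCast, pow_mul,
      ← div_eq_mul_inv, ← div_pow]
    refine pow_le_pow_left₀ (by positivity) ?_ _
    rw [add_div]
    have e4 : ‖w‖ ^ 2 ≤ 1 := pow_le_one₀ (norm_nonneg _) e2.le
    linarith [one_le_one_div e3 e4]
  have h2 : Tendsto (fun r : ℝ => ∫ w in ball (0 : Cn p) r, ψ w ∂volume.restrict (ball 0 1))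
      (𝓝[>] 0) (𝓝 0) := by
    refine Integrable.tendsto_setIntegral_nhds_zero h1 ?_
    have e1 : Tendsto (fun r : ℝ => ENNReal.ofReal (r ^ (2 * p)) *
        (volume : Measure (Cn p)) (ball 0 1)) (𝓝[>] 0) (𝓝 0) := by
      have e2 : Tendsto (fun r : ℝ => ENNReal.ofReal (r ^ (2 * p))) (𝓝[>] 0) (𝓝 0) := by
        have e3 : Continuous fun r : ℝ => ENNReal.ofReal (r ^ (2 * p)) :=
          ENNReal.continuous_ofReal.comp (continuous_pow _)
        have e4 := (e3.tendsto 0).mono_left (nhdsWithin_le_nhds (s := Ioi 0))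
        rwa [zero_pow (by omega), ENNReal.ofReal_zero] at e4
      simpa using ENNReal.Tendsto.mul_const e2 (Or.inr measure_ball_lt_top.ne)
    refine tendsto_of_tendsto_of_tendsto_of_le_of_le' tendsto_const_nhds e1
      (Eventually.of_forall fun _ => zero_le) ?_
    filter_upwards [self_mem_nhdsWithin] with r hr
    rw [← hd, ← Measure.addHaar_ball_of_pos _ 0 hr]
    exact Measure.restrict_apply_le _ _
  obtain ⟨r, ⟨e1, e2⟩, e3⟩ := (((h2.eventually (gt_mem_nhds hη)).and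
    (mem_nhdsWithin_of_mem_nhds (gt_mem_nhds one_pos))).and self_mem_nhdsWithin).exists
  rw [Measure.restrict_restrict measurableSet_ball,
    inter_eq_left.2 (ball_subset_ball (le_of_lt e2))] at e1
  have h3 : Integrable ((ball (0 : Cn p) r).indicator ψ) :=
    (integrable_indicator_iff measurableSet_ball).2 (h1.mono_set (ball_subset_ball (le_of_lt e2)))
  refine ⟨r, e3, fun g Λ b hg0 hgb hgr hΛ0 hΛ => ?_⟩
  have hb : 0 ≤ b := (hg0 0).trans (hgb 0)
  rw [← integral_add_right_eq_self _ y]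
  refine (integral_mono_of_nonneg (Eventually.of_forall fun w => ?_) (h3.const_mul b) ?_).trans ?_
  · exact mul_nonneg (hg0 _) (pow_nonneg (by linarith [hΛ0 (w + y)]) _)
  · filter_upwards [h0] with w hw
    by_cases h4 : w ∈ ball (0 : Cn p) r
    · rw [indicator_of_mem h4]
      have e4 : 0 < ‖w‖ ^ 2 := by positivity
      have e5 := hΛ (w + y)
      rw [add_sub_cancel_right, ← le_div_iff₀ e4] at e5
      exact mul_le_mul (hgb _) (pow_le_pow_left₀ (by linarith [hΛ0 (w + y)]) (by linarith) _)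
        (pow_nonneg (by linarith [hΛ0 (w + y)]) _) hb
    · rw [indicator_of_notMem h4, hgr _ (by simpa using h4)]
      simp
  · rw [integral_const_mul, integral_indicator measurableSet_ball]
    exact mul_le_mul_of_nonneg_left e1.le hb

end

end Crest.Agent.X261.Law
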