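import Crest.Agent.X261.Law.Step
import Crest.Agent.X261.Pole.Lim

/-!
# Row 261, package LAW (helper64), file `Main`: the change of shape of a pole

`Shp H T π y B C F` : the constraints `F s h` look like the ellipsoids `‖B (π - y)‖² ≤ e^{-s}` of
the tube, up to `C` in the depth.  `law` : the renormalised energies of two such families differ by
`k c^{p+1} log (jd B / jd B')` up to `mc (C + C')`.
-/

set_option autoImplicit false
set_option linter.unusedSectionVars false

open Set Filter Topology Complex MeasureTheory Metric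

namespace Crest.Agent.X261.Law

open Crest.Agent.R275.Geo
open Crest.Agent.R281.Kp_487 (KP)
open Crest.Agent.X261.BT Crest.Agent.X261.Pole
open Crest.Agent.X261.Pole2 (jd k1 k1_pos TB Vol)

noncomputable section

variable {n p : ℕ} {M : Type} [TopologicalSpace M] {A : Atl n M}

/-- the sharp shape of a family of constraints -/
structure Shp (H : KP A) (T : Set M) (π : M → Cn p) (y : Cn p) (B : Cn p →L[ℂ] Cn p) (C : ℝ)
    (F : ℝ → ℝ → Set (M → ℝ)) : Prop where
  inn : ∀ e > (0 : ℝ), ∀ᶠ s in atTop, ∀ h, 0 ≤ h → ∀ f : M → ℝ,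
    (∀ x ∈ T, ‖B (π x - y)‖ ^ 2 ≤ Real.exp (e - s) → f x ≤ -h - C) → f ∈ F s h
  out : ∀ e > (0 : ℝ), ∀ c c' : ℝ, 0 < c → c < c' → ∃ r > (0 : ℝ), ∀ᶠ s in atTop, ∀ f ∈ QQ H,
    f ∈ F s (c * s) → ∀ x ∈ T, ‖π x - y‖ ≤ r →
      f x ≤ -(c * s) + C + c' * Real.log (max (‖B (π x - y)‖ ^ 2 * Real.exp (s + e)) 1)

variable {H : KP A} {T : Set M} {π : M → Cn p} {V C C' : ℝ} {y : Cn p}
  {B B' : Cn p →L[ℂ] Cn p} {F : ℝ → ℝ → Set (M → ℝ)}

theorem Shp.mono (h : Shp H T π y B C F) (hC : C ≤ C') : Shp H T π y B C' F :=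
  ⟨fun e he => (h.inn e he).mono fun _ h1 a ha f hf => h1 a ha f fun x hx h2 =>
      (hf x hx h2).trans (by linarith),
    fun e he c c' hc hcc => (h.out e he c c' hc hcc).imp fun _ h1 => ⟨h1.1, h1.2.mono
      fun _ h2 f hf h3 x hx h4 => (h2 f hf h3 x hx h4).trans (by linarith)⟩⟩

variable [MeasurableSpace M] [BorelSpace M] [Countable A.ι] [T2Space M]

/-- **LAW**, one inequality -/
theorem law (hH : H.Pos) (hS : Slow H) (hT : TB A T π) (hV : Vol H T π V) (hp : 1 ≤ p)
    (hy : ‖y‖ < 1) (hB : jd B ≠ 0) (hB' : jd B' ≠ 0) {Y Y' : PF (lsOf hH hS)}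
    (hY : Y.Asy (V * k1 p) p) (hY' : Y'.Asy (V * k1 p) p) (h : Shp H T π y B C Y.F)
    (h' : Shp H T π y B' C' Y'.F) {c : ℝ} (hc : 0 < c) {a : M → ℝ} (ha : a ∈ QQ H) :
    Y'.dl (V * k1 p) p c a ≤ Y.dl (V * k1 p) p c a +
      kc (V * k1 p) p c * (Real.log (jd B) - Real.log (jd B')) +
      mc (V * k1 p) p c * (C + C') := by
  have hV0 : 0 ≤ V := nonneg_of_mul_nonneg_left hY.k_nonneg (k1_pos hp)
  obtain ⟨U, l, hU, hU', hl⟩ := exists_diag hB hB'
  have hU0 : jd U ≠ 0 := jd_ne_iff.2 fun w hw => jd_ne_iff.1 hB w (by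
    have := hU w
    rw [hw] at this
    simpa using this.symm)
  set k := V * k1 p with hk
  set m := ∑ i, |l i| with hm
  have hν : ∀ i, 0 ≤ l i + m := fun i => by
    linarith [neg_abs_le (l i), le_sum (ν := fun i => |l i|) (fun i => abs_nonneg _) i]
  have hsum : ∑ i, (l i + m) = ∑ i, l i + p * m := by
    rw [Finset.sum_add_distrib, Finset.sum_const, Finset.card_univ, Fintype.card_fin,
      nsmul_eq_mul]
  have hs1 : ∀ σ w, ‖sh U (fun i => l i + m) σ 1 w‖ ^ 2 = Real.exp (σ - m) * ‖B' w‖ ^ 2 :=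
    fun σ w => by
      rw [← hU', ← nsq_dg_add, sh_apply]
      congr 4
      funext i
      ring
  obtain ⟨κ, hκ, hlow⟩ := exists_low hB'
  set R : ℝ → ℝ := fun t => Y.dl k p c a + 2 * t + k * (c + t) ^ (p + 1) * (∑ i, l i + p * m) +
    kc k p c * (m - 2 * t) - mc k p c * (c * m - 2 * c * t - C - C' - (c + t) * t) with hR
  have key : ∀ N : ℕ, Y'.dl k p c a ≤ R (1 / (N + 1)) := fun N => by
    set t : ℝ := 1 / (N + 1) with ht
    have ht0 : 0 < t := by positivity
    obtain ⟨r₁, hr₁, e1⟩ := h.out t ht0 c (c + t) hc (by linarith)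
    obtain ⟨r₂, hr₂, e2⟩ := path hH hS hT hV hV0 hp hy hU0 hν N (c := c + t) (by linarith) ht0
    have hr : 0 < min r₁ r₂ := lt_min hr₁ hr₂
    have e3 := (tendsto_atTop_add_const_right atTop (2 * t - m) tendsto_id).eventually
      ((h'.inn t ht0).and (eventually_gt_atTop Y'.s0))
    have e4 := (hY.tendsto0 hc ha).add_const (R t - Y.dl k p c a)
    rw [add_sub_cancel] at e4
    refine ge_of_tendsto e4 ?_
    filter_upwards [e1, e3, eventually_gt_atTop Y.s0,
      eventually_ge_atTop ((C + C' + (c + t) * t) / c),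
      eventually_ge_atTop (-((c + t) * (t - m + Real.log (κ * min r₁ r₂ ^ 2)) + C) / t)]
      with s f1 f2 f3 f4 f5
    rw [div_le_iff₀ hc] at f4
    rw [div_le_iff₀ ht0] at f5
    obtain ⟨f, hf, hfa, hfF, hfD⟩ := (Y.cons s f3 (c * s)).near ha ht0
    have g1 : ∀ w, min r₁ r₂ ≤ ‖w - y‖ →
        0 ≤ mdl N (c + t) (sh U (fun i => l i + m) (s + t) 1) y (-(c * s) + C) w := fun w hw => by
      have k1 : Real.exp (s + t - m) * (κ * min r₁ r₂ ^ 2) ≤
          ‖sh U (fun i => l i + m) (s + t) 1 (w - y)‖ ^ 2 := by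
        rw [hs1]
        exact mul_le_mul_of_nonneg_left ((mul_le_mul_of_nonneg_left
          (pow_le_pow_left₀ hr.le hw 2) hκ.le).trans (hlow _)) (Real.exp_pos _).le
      have k2 := (log_le_Fm (N := N) (by positivity)).trans (Fm_mono k1)
      rw [Real.log_mul (Real.exp_pos _).ne' (by positivity), Real.log_exp] at k2
      have k3 := mul_le_mul_of_nonneg_left k2 (show 0 ≤ c + t by linarith)
      unfold mdl ell
      linarith
    obtain ⟨g, hg, hgf, hgO, hgD⟩ := e2 (s + t) (-(c * s) + C) f hf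
      (fun w hw => g1 w ((min_le_right _ _).trans hw)) fun x hx => by
        rcases le_total ‖π x - y‖ r₁ with k1 | k1
        · refine (f1 f hf hfF x hx k1).trans ?_
          have k2 := logmax_le_Fm (N := N) (‖B (π x - y)‖ ^ 2 * Real.exp (s + t))
          have k3 := mul_le_mul_of_nonneg_left k2 (show 0 ≤ c + t by linarith)
          unfold mdl ell
          rw [sh_zero, hU, mul_comm (Real.exp _)]
          linarith
        · exact ((QQ.le hf x).trans (g1 _ ((min_le_left _ _).trans k1))).trans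
            (ob_anti hν (by linarith) zero_le_one _)
    have g2 : g ∈ Y'.F (s + (2 * t - m)) (c * s - C - C' - (c + t) * t) :=
      f2.1 _ (by linarith) g fun x hx k1 => by
        have k2 : ‖sh U (fun i => l i + m) (s + t) 1 (π x - y)‖ ^ 2 ≤ 1 := by
          rw [hs1]
          refine (mul_le_mul_of_nonneg_left k1 (Real.exp_pos _).le).trans (le_of_eq ?_)
          rw [← Real.exp_add, ← Real.exp_zero]
          congr 1
          simp only [id]
          ring
        have k3 := mul_le_mul_of_nonneg_left (Fm_le (N := N) k2) (show 0 ≤ c + t by linarith)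
        have k4 := hgO x hx
        unfold mdl ell at k4
        linarith
    have g3 := hY'.dl_le hc ha f2.2 (c * s - C - C' - (c + t) * t)
    have g4 : Y'.Φ a (s + (2 * t - m)) (c * s - C - C' - (c + t) * t) ≤ -En H g :=
      LS.dp_le (S := lsOf hH hS) hg (hgf.trans hfa) g2
    have g5 : -En H f < Y.Φ a s (c * s) + t := hfD
    rw [hsum] at hgD
    simp only [id] at g3
    simp only [hR]
    linarith
  have hRc : Continuous R := by fun_prop
  have := ge_of_tendsto' ((hRc.tendsto 0).comp tendsto_one_div_add_atTop_nhds_zero_nat) key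
  simp only [hR, add_zero, mul_zero, sub_zero] at this
  have e := mc_mul k p c
  rw [← hl]
  unfold kc at e this ⊢
  linear_combination this - m * e

/-- **LAW** -/
theorem law_abs (hH : H.Pos) (hS : Slow H) (hT : TB A T π) (hV : Vol H T π V) (hp : 1 ≤ p)
    (hy : ‖y‖ < 1) (hB : jd B ≠ 0) (hB' : jd B' ≠ 0) {Y Y' : PF (lsOf hH hS)}
    (hY : Y.Asy (V * k1 p) p) (hY' : Y'.Asy (V * k1 p) p) (h : Shp H T π y B C Y.F)
    (h' : Shp H T π y B' C' Y'.F) {c : ℝ} (hc : 0 < c) {a : M → ℝ} (ha : a ∈ QQ H) :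
    |(Y'.dl (V * k1 p) p c a + kc (V * k1 p) p c * Real.log (jd B')) -
      (Y.dl (V * k1 p) p c a + kc (V * k1 p) p c * Real.log (jd B))| ≤
      mc (V * k1 p) p c * (C + C') := by
  have h1 := law hH hS hT hV hp hy hB hB' hY hY' h h' hc ha
  have h2 := law hH hS hT hV hp hy hB' hB hY' hY h' h hc ha
  rw [abs_le]
  constructor <;> linarith

end

end Crest.Agent.X261.Law
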