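import Crest.Agent.X261.Pole2.Mod

/-!
# Row 261, package LAW (helper64), file `One`: the sharp one variable profiles

Copy of `Pole2/One` (helper32) with a parameter: the cut-off lives on `[1, 1 + 1/(N+1)]`.
-/

set_option autoImplicit false

open Set Filter Topology MeasureTheory
open scoped ContDiff

namespace Crest.Agent.X261.Law

noncomputable section

/-- the right end of the cut-off -/
def bN (N : ℕ) : ℝ := 1 + 1 / (N + 1)

/-- the cut-off -/
def gT (N : ℕ) (τ : ℝ) : ℝ := Real.smoothTransition ((N + 1) * (τ - 1))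

/-- derivative of the cut-off -/
def g2 (N : ℕ) (τ : ℝ) : ℝ := deriv (gT N) τ

/-- derivative of the profile -/
def g1 (N : ℕ) (τ : ℝ) : ℝ := gT N τ / τ

/-- second derivative of the profile -/
def g3 (N : ℕ) (τ : ℝ) : ℝ := deriv (g1 N) τ

/-- the profile -/
def Fm (N : ℕ) (ρ : ℝ) : ℝ := Real.log (bN N) + ∫ τ in (bN N)..ρ, g1 N τ

variable {N : ℕ}

theorem one_lt_bN : 1 < bN N := lt_add_of_pos_right _ (by positivity)

theorem bN_pos : 0 < bN N := one_pos.trans one_lt_bN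

theorem bN_le : bN N ≤ 2 := by
  have : (1 : ℝ) / (N + 1) ≤ 1 := div_le_one_of_le₀ (by linarith [Nat.cast_nonneg (α := ℝ) N])
    (by positivity)
  unfold bN; linarith

theorem log_bN_le : Real.log (bN N) ≤ 1 / (N + 1) := by
  have := Real.log_le_sub_one_of_pos (bN_pos (N := N))
  unfold bN at this ⊢; linarith

theorem gT_smooth : ContDiff ℝ ∞ (gT N) :=
  Real.smoothTransition.contDiff.comp (contDiff_const.mul (contDiff_id.sub contDiff_const))

theorem gT_zero {τ : ℝ} (h : τ ≤ 1) : gT N τ = 0 :=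
  Real.smoothTransition.zero_of_nonpos
    (mul_nonpos_of_nonneg_of_nonpos (by positivity) (by linarith))

theorem gT_one {τ : ℝ} (h : bN N ≤ τ) : gT N τ = 1 :=
  Real.smoothTransition.one_of_one_le (by
    have h1 : 1 / ((N : ℝ) + 1) ≤ τ - 1 := by unfold bN at h; linarith
    rw [div_le_iff₀ (by positivity)] at h1
    linarith)

theorem gT_nonneg (τ : ℝ) : 0 ≤ gT N τ := Real.smoothTransition.nonneg _

theorem gT_le_one (τ : ℝ) : gT N τ ≤ 1 := Real.smoothTransition.le_one _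

theorem gT_pos {τ : ℝ} (h : 1 < τ) : 0 < gT N τ :=
  Real.smoothTransition.pos_of_pos (mul_pos (by positivity) (by linarith))

theorem gT_mono : Monotone (gT N) := fun _ _ h =>
  Real.smoothTransition.monotone (mul_le_mul_of_nonneg_left (by linarith) (by positivity))

theorem gT_deriv (τ : ℝ) : HasDerivAt (gT N) (g2 N τ) τ :=
  (gT_smooth.differentiable (by simp) τ).hasDerivAt

theorem g2_smooth : ContDiff ℝ ∞ (g2 N) := (contDiff_infty_iff_deriv.1 gT_smooth).2

theorem g2_nonneg (τ : ℝ) : 0 ≤ g2 N τ := gT_mono.deriv_nonneg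

theorem g2_zero_of_le {τ : ℝ} (h : τ ≤ 1) : g2 N τ = 0 :=
  IsLocalMin.deriv_eq_zero (Eventually.of_forall fun x => by
    rw [gT_zero h]; exact gT_nonneg x)

theorem g2_zero_of_ge {τ : ℝ} (h : bN N ≤ τ) : g2 N τ = 0 :=
  IsLocalMax.deriv_eq_zero (Eventually.of_forall fun x => by
    rw [gT_one h]; exact gT_le_one x)

theorem g1_zero {τ : ℝ} (h : τ ≤ 1) : g1 N τ = 0 := by rw [g1, gT_zero h, zero_div]

theorem g1_smooth : ContDiff ℝ ∞ (g1 N) := by
  refine contDiff_iff_contDiffAt.2 fun τ => ?_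
  rcases lt_or_ge τ 1 with h | h
  · refine (contDiffAt_const (c := (0 : ℝ))).congr_of_eventuallyEq ?_
    exact (eventually_lt_nhds h).mono fun _ hx => g1_zero hx.le
  · exact gT_smooth.contDiffAt.div contDiffAt_id (by linarith)

theorem g1_nonneg (τ : ℝ) : 0 ≤ g1 N τ := by
  rcases le_or_gt τ 1 with h | h
  · rw [g1_zero h]
  · exact div_nonneg (gT_nonneg τ) (by linarith)

theorem g1_mul (τ : ℝ) : g1 N τ * τ = gT N τ := by
  rcases le_or_gt τ 1 with h | h
  · rw [g1_zero h, gT_zero h, zero_mul]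
  · exact div_mul_cancel₀ _ (by linarith)

theorem g1_le (τ : ℝ) : g1 N τ ≤ 1 / max τ 1 := by
  rcases le_or_gt τ 1 with h | h
  · rw [g1_zero h]; positivity
  · rw [max_eq_left h.le]
    exact div_le_div_of_nonneg_right (gT_le_one τ) (by linarith)

theorem g1_deriv (τ : ℝ) : HasDerivAt (g1 N) (g3 N τ) τ :=
  (g1_smooth.differentiable (by simp) τ).hasDerivAt

theorem g1_add (τ : ℝ) : g1 N τ + g3 N τ * τ = g2 N τ := by
  have h1 := (g1_deriv (N := N) τ).mul (hasDerivAt_id τ)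
  have h2 : (g1 N * id) = gT N := funext fun x => g1_mul x
  rw [h2] at h1
  have := h1.unique (gT_deriv τ)
  simp only [id, mul_one] at this
  linarith

theorem g3_zero {τ : ℝ} (h : τ ≤ 1) : g3 N τ = 0 :=
  IsLocalMin.deriv_eq_zero (Eventually.of_forall fun x => by
    rw [g1_zero h]; exact g1_nonneg x)

theorem exists_g2_bd (N : ℕ) : ∃ L : ℝ, 1 ≤ L ∧ ∀ τ, g2 N τ ≤ L / max τ 1 := by
  obtain ⟨C, hC⟩ := (isCompact_Icc (a := (1 : ℝ)) (b := 2)).exists_bound_of_continuousOn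
    (g2_smooth (N := N)).continuous.continuousOn
  refine ⟨max 1 (2 * C), le_max_left _ _, fun τ => ?_⟩
  have h0 : 0 ≤ max 1 (2 * C) / max τ 1 := by positivity
  rcases le_or_gt τ 1 with h | h
  · rwa [g2_zero_of_le h]
  rcases le_or_gt 2 τ with h' | h'
  · rwa [g2_zero_of_ge (bN_le.trans h')]
  have h1 := (le_abs_self _).trans (hC τ ⟨h.le, h'.le⟩)
  have h2 := g2_nonneg (N := N) τ
  rw [max_eq_left h.le, le_div_iff₀ (by linarith)]
  have := le_max_right 1 (2 * C)
  nlinarith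

/-- a bound for `g2` -/
def L0 (N : ℕ) : ℝ := (exists_g2_bd N).choose

theorem one_le_L0 : 1 ≤ L0 N := (exists_g2_bd N).choose_spec.1

theorem g2_le (τ : ℝ) : g2 N τ ≤ L0 N / max τ 1 := (exists_g2_bd N).choose_spec.2 τ

theorem g3_le (τ : ℝ) : g3 N τ ≤ L0 N := by
  have h0 := one_le_L0 (N := N)
  rcases le_or_gt τ 1 with h | h
  · rw [g3_zero h]; linarith
  have h1 := g1_add (N := N) τ
  have h2 := (g2_le (N := N) τ).trans (div_le_self (by linarith) (le_max_right τ 1))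
  have h3 := g1_nonneg (N := N) τ
  by_contra h4
  push Not at h4
  nlinarith

theorem Fm_deriv (ρ : ℝ) : HasDerivAt (Fm N) (g1 N ρ) ρ :=
  (intervalIntegral.integral_hasDerivAt_right (g1_smooth.continuous.intervalIntegrable _ _)
    (g1_smooth.continuous.stronglyMeasurableAtFilter _ _)
    g1_smooth.continuous.continuousAt).const_add _

theorem Fm_smooth : ContDiff ℝ ∞ (Fm N) := by
  refine contDiff_infty_iff_deriv.2 ⟨fun ρ => (Fm_deriv ρ).differentiableAt, ?_⟩
  rw [show deriv (Fm N) = g1 N from funext fun ρ => (Fm_deriv ρ).deriv]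
  exact g1_smooth

theorem Fm_mono : Monotone (Fm N) :=
  monotone_of_deriv_nonneg (fun ρ => (Fm_deriv ρ).differentiableAt) fun ρ => by
    rw [(Fm_deriv ρ).deriv]; exact g1_nonneg ρ

theorem Fm_b : Fm N (bN N) = Real.log (bN N) := by simp [Fm]

theorem Fm_sub_anti : AntitoneOn (fun ρ => Fm N ρ - Real.log ρ) (Ioi 0) := by
  have hd : ∀ ρ ∈ Ioi (0 : ℝ), HasDerivAt (fun ρ => Fm N ρ - Real.log ρ) (g1 N ρ - ρ⁻¹) ρ :=
    fun ρ hρ => (Fm_deriv ρ).sub (Real.hasDerivAt_log (ne_of_gt hρ))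
  refine antitoneOn_of_deriv_nonpos (convex_Ioi 0)
    (fun ρ hρ => (hd ρ hρ).continuousAt.continuousWithinAt) (fun ρ hρ => ?_) fun ρ hρ => ?_
  · rw [interior_Ioi] at hρ; exact (hd ρ hρ).differentiableAt.differentiableWithinAt
  · rw [interior_Ioi] at hρ
    rw [(hd ρ hρ).deriv, g1, sub_nonpos, ← one_div]
    exact div_le_div_of_nonneg_right (gT_le_one ρ) (le_of_lt hρ)

theorem Fm_log {ρ : ℝ} (h : bN N ≤ ρ) : Fm N ρ = Real.log ρ := by
  have h0 := bN_pos (N := N)
  have h1 : ∫ τ in (bN N)..ρ, g1 N τ = ∫ τ in (bN N)..ρ, τ⁻¹ :=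
    intervalIntegral.integral_congr fun τ hτ => by
      rw [uIcc_of_le h] at hτ
      rw [g1, gT_one hτ.1, one_div]
  rw [Fm, h1, integral_inv_of_pos h0 (by linarith), Real.log_div (by linarith) h0.ne']
  ring

theorem log_le_Fm {ρ : ℝ} (h : 0 < ρ) : Real.log ρ ≤ Fm N ρ := by
  rcases le_total (bN N) ρ with h2 | h2
  · exact (Fm_log h2).ge
  · have := Fm_sub_anti (N := N) (mem_Ioi.2 h) (mem_Ioi.2 bN_pos) h2
    simp only [Fm_b, sub_self] at this
    linarith

theorem Fm_le {ρ : ℝ} (h : ρ ≤ 1) : Fm N ρ ≤ 1 / (N + 1) :=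
  ((Fm_mono (h.trans one_lt_bN.le)).trans_eq Fm_b).trans log_bN_le

theorem Fm_const {ρ : ℝ} (h : ρ ≤ 1) : Fm N ρ = Fm N 1 := by
  have h1 : ∫ τ in ρ..1, g1 N τ = 0 := by
    rw [intervalIntegral.integral_congr (g := fun _ => (0 : ℝ)) fun τ hτ => by
      rw [uIcc_of_le h] at hτ; exact g1_zero hτ.2]
    simp
  have h2 := intervalIntegral.integral_add_adjacent_intervals
    ((g1_smooth (N := N)).continuous.intervalIntegrable (μ := volume) (bN N) ρ)
    (g1_smooth.continuous.intervalIntegrable ρ 1)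
  rw [Fm, Fm, ← h2, h1, add_zero]

theorem Fm_nonneg (ρ : ℝ) : 0 ≤ Fm N ρ := by
  have h1 : 0 ≤ Fm N 1 := by simpa using log_le_Fm (N := N) one_pos
  rcases le_total ρ 1 with h | h
  · rwa [Fm_const h]
  · exact h1.trans (Fm_mono h)

theorem logmax_le_Fm (ρ : ℝ) : Real.log (max ρ 1) ≤ Fm N ρ := by
  rcases le_total ρ 1 with h | h
  · rw [max_eq_right h, Real.log_one]; exact Fm_nonneg ρ
  · rw [max_eq_left h]; exact log_le_Fm (by linarith)

/-- Taylor bound -/
theorem Fm_taylor (ρ ρ' : ℝ) :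
    Fm N ρ' - Fm N ρ ≤ g1 N ρ * (ρ' - ρ) + L0 N * (ρ' - ρ) ^ 2 := by
  have hL := one_le_L0 (N := N)
  have ha : Antitone fun x => g1 N x - L0 N * x :=
    antitone_of_deriv_nonpos
      (fun x => ((g1_deriv x).sub ((hasDerivAt_id x).const_mul (L0 N))).differentiableAt)
      fun x => by
        have h1 : HasDerivAt (fun x => g1 N x - L0 N * x) (g3 N x - L0 N * 1) x :=
          (g1_deriv x).sub ((hasDerivAt_id x).const_mul (L0 N))
        rw [h1.deriv]; linarith [g3_le (N := N) x]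
  rcases lt_trichotomy ρ ρ' with h | h | h
  · obtain ⟨ξ, hξ, h1⟩ := exists_hasDerivAt_eq_slope (Fm N) (g1 N) h
      Fm_smooth.continuous.continuousOn fun x _ => Fm_deriv x
    rw [eq_div_iff (by linarith)] at h1
    have h2 := ha hξ.1.le
    have h3 : g1 N ξ ≤ g1 N ρ + L0 N * (ρ' - ρ) := by nlinarith [hξ.2]
    nlinarith
  · simp [h]
  · obtain ⟨ξ, hξ, h1⟩ := exists_hasDerivAt_eq_slope (Fm N) (g1 N) h
      Fm_smooth.continuous.continuousOn fun x _ => Fm_deriv x
    rw [eq_div_iff (by linarith)] at h1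
    have h2 := ha hξ.2.le
    have h3 : g1 N ρ ≤ g1 N ξ + L0 N * (ρ - ρ') := by nlinarith [hξ.1]
    nlinarith

/-- `Fm (e^h ρ) - h` decreases in `h` -/
theorem Fm_shift {h : ℝ} (hh : 0 ≤ h) {ρ : ℝ} (hρ : 0 ≤ ρ) :
    Fm N (Real.exp h * ρ) - h ≤ Fm N ρ := by
  have h1 : ρ ≤ Real.exp h * ρ := le_mul_of_one_le_left hρ (Real.one_le_exp hh)
  rcases hρ.eq_or_lt with rfl | h0
  · rw [mul_zero]; linarith
  have := Fm_sub_anti (N := N) (mem_Ioi.2 h0) (mem_Ioi.2 (h0.trans_le h1)) h1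
  simp only [Real.log_mul (Real.exp_pos h).ne' h0.ne', Real.log_exp] at this
  linarith

end

end Crest.Agent.X261.Law
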