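import Crest.Agent.X261.Law.Lin
import Crest.Agent.X261.Pole2.Defs
import Crest.Agent.X261.BT.Inst

/-!
# Row 261, package LAW (helper64), file `Step`: the energy along a diagonal path of obstacles
-/

set_option autoImplicit false
set_option linter.unusedSectionVars false

open Set Filter Topology Complex MeasureTheory Metric
open scoped ContDiff

namespace Crest.Agent.X261.Law

open Crest.Agent.R275.Geo
open Crest.Agent.R281.Kp_487 (KP)
open Crest.Agent.R257.HoB_843 (lvE)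
open Crest.Agent.X261.BT
open Crest.Agent.X261.Pole2 (jd m1 k1 k1_pos m1_pos aff_smooth subdiv TB lift Vol lift_of_mem
  lift_of_not lift_nonneg)

noncomputable section

variable {p : ℕ}

/-- the shape at time `τ` -/
def sh (U : Cn p →L[ℂ] Cn p) (ν : Fin p → ℝ) (s τ : ℝ) : Cn p →L[ℂ] Cn p :=
  dg (fun i => s - τ * ν i) ∘L U

section flat

variable {U : Cn p →L[ℂ] Cn p} {ν : Fin p → ℝ} {s a b c K : ℝ} {N : ℕ} {y : Cn p}

theorem sh_apply (τ : ℝ) (w : Cn p) : sh U ν s τ w = dg (fun i => s - τ * ν i) (U w) := rfl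

theorem sh_step (a b : ℝ) (w : Cn p) :
    sh U ν s a w = dg (fun i => (b - a) * ν i) (sh U ν s b w) := by
  rw [sh_apply, sh_apply, dg_dg]
  congr 2
  funext i
  ring

theorem le_sum (hν : ∀ i, 0 ≤ ν i) (i : Fin p) : ν i ≤ ∑ j, ν j :=
  Finset.single_le_sum (fun j _ => hν j) (Finset.mem_univ i)

theorem sh_anti (hν : ∀ i, 0 ≤ ν i) (hab : a ≤ b) (w : Cn p) :
    ‖sh U ν s b w‖ ^ 2 ≤ ‖sh U ν s a w‖ ^ 2 := by
  have := nsq_dg_le (d := fun i => s - b * ν i) (e := fun i => s - a * ν i) (m := 0)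
    (fun i => by nlinarith [hν i]) (U w)
  rwa [Real.exp_zero, one_mul] at this

theorem sh_le (hν : ∀ i, 0 ≤ ν i) (hab : a ≤ b) (w : Cn p) :
    ‖sh U ν s a w‖ ^ 2 ≤ Real.exp ((b - a) * ∑ j, ν j) * ‖sh U ν s b w‖ ^ 2 :=
  nsq_dg_le (fun i => by nlinarith [le_sum hν i]) (U w)

theorem sh_zero (w : Cn p) : ‖sh U ν s 0 w‖ ^ 2 = Real.exp s * ‖U w‖ ^ 2 := by
  rw [sh_apply, ← nsq_dg_const]
  simp

theorem sh_low (hν : ∀ i, 0 ≤ ν i) (h0 : 0 ≤ b) (h1 : b ≤ 1) (w : Cn p) :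
    Real.exp s * ‖U w‖ ^ 2 ≤ Real.exp (∑ j, ν j) * ‖sh U ν s b w‖ ^ 2 := by
  have h2 := sh_le (U := U) (s := s) hν h0 w
  rw [sh_zero] at h2
  refine h2.trans (mul_le_mul_of_nonneg_right (Real.exp_le_exp.2 ?_) (by positivity))
  nlinarith [Finset.sum_nonneg fun j (_ : j ∈ Finset.univ) => hν j]

theorem sh_norm (hν : ∀ i, 0 ≤ ν i) (h0 : 0 ≤ b) : ‖sh U ν s b‖ ^ 2 ≤ Real.exp s * ‖U‖ ^ 2 := by
  have h1 : ‖sh U ν s b‖ ≤ Real.sqrt (Real.exp s * ‖U‖ ^ 2) :=
    ContinuousLinearMap.opNorm_le_bound _ (Real.sqrt_nonneg _) fun w => by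
      refine (pow_le_pow_iff_left₀ (norm_nonneg _) (by positivity) two_ne_zero).1 ?_
      rw [mul_pow, Real.sq_sqrt (by positivity), mul_assoc, ← mul_pow]
      refine ((sh_anti hν h0 w).trans_eq (sh_zero w)).trans ?_
      exact mul_le_mul_of_nonneg_left (pow_le_pow_left₀ (norm_nonneg _) (U.le_opNorm w) 2)
        (Real.exp_pos s).le
  exact (pow_le_pow_left₀ (norm_nonneg _) h1 2).trans_eq (Real.sq_sqrt (by positivity))

theorem jd_sh (hU : jd U ≠ 0) (τ : ℝ) : jd (sh U ν s τ) ≠ 0 :=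
  jd_ne_iff.2 fun w hw => jd_ne_iff.1 hU w (by
    have h := dg_dg (fun i => -(s - τ * ν i)) (fun i => s - τ * ν i) (U w)
    rw [← sh_apply, hw, map_zero] at h
    have h1 := nsq_dg_const 0 (U w)
    simp only [neg_add_cancel] at h
    rw [← h, Real.exp_zero, one_mul] at h1
    simpa using h1.symm)

theorem ob_anti (hν : ∀ i, 0 ≤ ν i) (hc : 0 ≤ c) (hab : a ≤ b) (w : Cn p) :
    mdl N c (sh U ν s b) y K w ≤ mdl N c (sh U ν s a) y K w :=
  add_le_add_left (mul_le_mul_of_nonneg_left (Fm_mono (sh_anti hν hab _)) hc) _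

theorem ob_le (hν : ∀ i, 0 ≤ ν i) (hc : 0 ≤ c) (hab : a ≤ b) (w : Cn p) :
    mdl N c (sh U ν s a) y K w - mdl N c (sh U ν s b) y K w ≤ c * ((b - a) * ∑ j, ν j) := by
  have h1 := Fm_mono (N := N) (sh_le (U := U) (s := s) hν hab (w - y))
  have h2 := Fm_shift (N := N) (h := (b - a) * ∑ j, ν j) (mul_nonneg (sub_nonneg.2 hab)
    (Finset.sum_nonneg fun j _ => hν j)) (ρ := ‖sh U ν s b (w - y)‖ ^ 2) (by positivity)
  have h3 := mul_le_mul_of_nonneg_left (show Fm N (‖sh U ν s a (w - y)‖ ^ 2) -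
    Fm N (‖sh U ν s b (w - y)‖ ^ 2) ≤ (b - a) * ∑ j, ν j by linarith) hc
  unfold mdl ell
  linarith

theorem mh_cpt (hp : 1 ≤ p) {B : Cn p →L[ℂ] Cn p} (hB : jd B ≠ 0) :
    HasCompactSupport (mh fun _ => mdl N c B y K) := by
  obtain ⟨κ, hκ, h⟩ := exists_low hB
  refine HasCompactSupport.intro (isCompact_closedBall y (1 + 2 / κ)) fun w hw => ?_
  rw [mem_closedBall_iff_norm, not_le] at hw
  have h1 : 0 ≤ 2 / κ := by positivity
  have h2 : 2 / κ ≤ ‖w - y‖ ^ 2 := by nlinarith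
  rw [div_le_iff₀ hκ] at h2
  rw [mh_mdl, mu_zero hp (by linarith [h (w - y)])]
  simp

theorem exp_bd {x m : ℝ} (h0 : 0 ≤ x) (h : x ≤ m) :
    Real.exp x - 1 ≤ x * Real.exp m ∧ Real.exp x - 1 ≤ x + x ^ 2 * Real.exp m := by
  have h1 := Real.add_one_le_exp (-x)
  have h2 : Real.exp (-x) * Real.exp x = 1 := by rw [← Real.exp_add]; simp
  have h3 := Real.exp_pos x
  have h4 : Real.exp x - 1 ≤ x * Real.exp x := by nlinarith
  have h5 := mul_le_mul_of_nonneg_left (Real.exp_le_exp.2 h) h0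
  have h6 := mul_le_mul_of_nonneg_left (h4.trans h5) h0
  exact ⟨h4.trans h5, by nlinarith⟩

/-- second order constant of the path -/
def C2 (N p : ℕ) (m : ℝ) : ℝ :=
  k1 p * (p * m ^ 2 * Real.exp m) + 4 * L0 N * m1 p * (m * Real.exp m) ^ 2

theorem int_ob (hp : 1 ≤ p) (hU : jd U ≠ 0) (hν : ∀ i, 0 ≤ ν i) (hc : 0 ≤ c) (hab : a ≤ b)
    (h1 : b - a ≤ 1) :
    ∫ w, (mdl N c (sh U ν s a) y K w - mdl N c (sh U ν s b) y K w) *
        mh (fun _ => mdl N c (sh U ν s b) y K) w ≤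
      c ^ (p + 1) * (k1 p * (∑ j, ν j) * (b - a) + C2 N p (∑ j, ν j) * (b - a) ^ 2) := by
  set m := ∑ j, ν j with hm
  set d := b - a with hd
  have hd0 : 0 ≤ d := sub_nonneg.2 hab
  have hm0 : 0 ≤ m := Finset.sum_nonneg fun j _ => hν j
  have h2 : ∀ i, 0 ≤ d * ν i ∧ d * ν i ≤ m := fun i =>
    ⟨mul_nonneg hd0 (hν i), by nlinarith [le_sum hν i, hν i]⟩
  have h3 := int_mdl (N := N) c y K (jd_sh (ν := ν) (s := s) hU b)
    (φ := fun u => c * (ell N (dg (fun i => d * ν i) u) - ell N u))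
    (continuous_const.mul ((ell_smooth.continuous.comp (dg _).continuous).sub
      ell_smooth.continuous))
  have h4 := int_step (N := N) hp (dg fun i => d * ν i).continuous (nsq_dg_i fun i => d * ν i)
    (δ := d * (m * Real.exp m)) fun i => by
      rw [abs_of_nonneg (sub_nonneg.2 (Real.one_le_exp (h2 i).1))]
      refine (exp_bd (h2 i).1 (h2 i).2).1.trans ?_
      rw [mul_assoc]
      exact mul_le_mul_of_nonneg_left
        (mul_le_mul_of_nonneg_right (le_sum hν i) (Real.exp_pos _).le) hd0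
  have h5 : ∑ i, (Real.exp (d * ν i) - 1) ≤ d * m + p * m ^ 2 * Real.exp m * d ^ 2 := by
    have e1 : ∀ i, Real.exp (d * ν i) - 1 ≤ d * ν i + m ^ 2 * Real.exp m * d ^ 2 := fun i => by
      refine (exp_bd (h2 i).1 (h2 i).2).2.trans ?_
      have e2 : (d * ν i) ^ 2 ≤ (d * m) ^ 2 :=
        pow_le_pow_left₀ (h2 i).1 (mul_le_mul_of_nonneg_left (le_sum hν i) hd0) 2
      nlinarith [mul_le_mul_of_nonneg_right e2 (Real.exp_pos m).le]
    refine (Finset.sum_le_sum fun i _ => e1 i).trans (le_of_eq ?_)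
    rw [Finset.sum_add_distrib, ← Finset.mul_sum, Finset.sum_const, Finset.card_univ,
      Fintype.card_fin, nsmul_eq_mul]
    ring
  have h6 : ∀ w, mdl N c (sh U ν s a) y K w - mdl N c (sh U ν s b) y K w =
      c * (ell N (dg (fun i => d * ν i) (sh U ν s b (w - y))) - ell N (sh U ν s b (w - y))) :=
    fun w => by rw [mdl, mdl, sh_step a b]; ring
  simp only [h6]
  rw [h3]
  simp only [mul_assoc c]
  rw [integral_const_mul, ← mul_assoc, ← pow_succ]
  refine mul_le_mul_of_nonneg_left (h4.trans ?_) (by positivity)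
  have := mul_le_mul_of_nonneg_left h5 (k1_pos hp).le
  unfold C2
  nlinarith

end flat

variable {n : ℕ} {M : Type} [TopologicalSpace M] {A : Atl n M} [MeasurableSpace M] [BorelSpace M]
  [Countable A.ι] [T2Space M] {H : KP A} {T : Set M} {π : M → Cn p} {V : ℝ}

/-- **the path of obstacles** -/
theorem path (hH : H.Pos) (hS : Slow H) (hT : TB A T π) (hV : Vol H T π V) (hV0 : 0 ≤ V)
    (hp : 1 ≤ p) {y : Cn p} (hy : ‖y‖ < 1) {U : Cn p →L[ℂ] Cn p} (hU : jd U ≠ 0)
    {ν : Fin p → ℝ} (hν : ∀ i, 0 ≤ ν i) (N : ℕ) {c : ℝ} (hc : 0 ≤ c) {η : ℝ} (hη : 0 < η) :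
    ∃ r > (0 : ℝ), ∀ (s K : ℝ), ∀ f ∈ QQ H,
      (∀ w, r ≤ ‖w - y‖ → 0 ≤ mdl N c (sh U ν s 1) y K w) →
      (∀ x ∈ T, f x ≤ mdl N c (sh U ν s 0) y K (π x)) →
      ∃ g ∈ QQ H, g ≤ f ∧ (∀ x ∈ T, g x ≤ mdl N c (sh U ν s 1) y K (π x)) ∧
        -En H g ≤ -En H f + V * k1 p * c ^ (p + 1) * ∑ j, ν j + η := by
  set m := ∑ j, ν j with hm
  have hm0 : 0 ≤ m := Finset.sum_nonneg fun j _ => hν j
  have hL := one_le_L0 (N := N)
  have hρ : (1 + ‖y‖) / 2 < 1 := by linarith
  obtain ⟨C, hC, hvol⟩ := hV _ hρ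
  obtain ⟨κ, hκ, hlow⟩ := exists_low hU
  obtain ⟨r, hr, hsm⟩ := small hp (K := c * L0 N * ‖U‖ ^ 2 * Real.exp m / κ) (by positivity) y
    (η := η / (C * (c * m) + 1)) (by positivity)
  refine ⟨min r ((1 - ‖y‖) / 2), lt_min hr (by linarith), fun s K f hf h1 h0 => ?_⟩
  set O : ℝ → Cn p → ℝ := fun τ => mdl N c (sh U ν s τ) y K with hO
  set G : ℝ → Cn p → ℝ := fun τ w => min (O τ w) 0 with hG
  have hOc : ∀ τ, Continuous (O τ) := fun τ => (mdl_smooth c _ y K).continuous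
  have hGc : ∀ τ, Continuous (G τ) := fun τ => (hOc τ).min continuous_const
  have hG0 : ∀ τ ≤ 1, ∀ w, min r ((1 - ‖y‖) / 2) ≤ ‖w - y‖ → G τ w = 0 := fun τ hτ w hw =>
    min_eq_right ((h1 w hw).trans (ob_anti hν hc hτ w))
  have hG1 : ∀ τ ≤ 1, ∀ w, (1 + ‖y‖) / 2 < ‖w‖ → G τ w = 0 := fun τ hτ w hw =>
    hG0 τ hτ w ((min_le_right _ _).trans (by linarith [norm_le_norm_add_norm_sub' w y]))
  set v : ℝ → M → ℝ := fun τ x => min (f x) (lift T π (G τ) x) with hv
  have hvc : ∀ τ ≤ 1, Continuous (v τ) := fun τ hτ =>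
    (QQ.cont hf).min (hT.tst_lift' (hGc τ) hρ (hG1 τ hτ)).cont
  have hvs : ∀ τ ≤ 1, HasCompactSupport (v τ) := fun τ hτ => by
    have e1 := (hT.tst_lift' (hGc τ) hρ (hG1 τ hτ)).cpt
    refine HasCompactSupport.intro (hf.1.cpt.isCompact.union e1.isCompact) fun x hx => ?_
    simp only [hv]
    rw [image_eq_zero_of_notMem_tsupport fun h => hx (Or.inl h),
      image_eq_zero_of_notMem_tsupport (f := lift T π (G τ)) fun h => hx (Or.inr h), min_self]
  have hob : ∀ τ ≤ 1, Obs H (v τ) := fun τ hτ => hS.obs0 (pos_semi hH) (hvc τ hτ) (hvs τ hτ)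
  have hpp : ∀ τ ≤ 1, PP H (env H (v τ)) := fun τ hτ => hS.pp_env hH (hvc τ hτ) (hvs τ hτ)
  have hle : ∀ τ ≤ 1, ∀ x, env H (v τ) x ≤ v τ x := fun τ hτ => (hob τ hτ).env_le (pos_semi hH)
  have hvO : ∀ τ, ∀ x ∈ T, v τ x ≤ G τ (π x) := fun τ x hx =>
    (min_le_right _ _).trans_eq (lift_of_mem hx)
  have key : ∀ a b, 0 ≤ a → a ≤ b → b ≤ 1 → b - a ≤ 1 →
      En H (env H (v a)) - En H (env H (v b)) ≤ (V * k1 p * c ^ (p + 1) * m + η) * (b - a) +
        V * c ^ (p + 1) * C2 N p m * (b - a) ^ 2 := by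
    intro a b ha hab hb hd
    have ha1 := hab.trans hb
    set g : Cn p → ℝ := fun w => G a w - G b w with hg
    have hgc : Continuous g := (hGc a).sub (hGc b)
    have hOO : ∀ w, O b w ≤ O a w := ob_anti hν hc hab
    have hg0 : ∀ w, 0 ≤ g w := fun w => sub_nonneg.2 (min_le_min_right _ (hOO w))
    have hgO : ∀ w, g w ≤ O a w - O b w := fun w => by
      simp only [hg, hG]
      rcases le_total (O b w) 0 with h | h
      · rw [min_eq_left h]; linarith [min_le_left (O a w) 0]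
      · rw [min_eq_right h]; linarith [min_le_right (O a w) 0, hOO w]
    have hg1 : ∀ w, (1 + ‖y‖) / 2 < ‖w‖ → g w = 0 := fun w hw => by
      simp only [hg, hG1 a ha1 w hw, hG1 b hb w hw, sub_self]
    have hF : QP H T fun x => O b (π x) := hT.qp (pos_semi hH) (sp_mdl _ y K hc)
    have hint := (MX_rad hT.op fun _ => hF).int (hT.tst_lift' hgc hρ hg1)
    have hSo : IsOpen (T ∩ (fun x => f x - O b (π x)) ⁻¹' Ioi 0) :=
      ((QQ.cont hf).continuousOn.sub hF.cont).isOpen_inter_preimage hT.op isOpen_Ioi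
    have e1 := Er_step_loc' hH (g := lift T π g) (hob b hb) (hpp a ha1).qp
      ((hpp a ha1).ce0.trans (CE.zero_iff.2 (hvs b hb)).symm) hF
      (fun x hx => (hvO b x hx).trans (min_le_left _ _)) hSo.measurableSet inter_subset_left
      (fun x hx => by
        have e : O b (π x) < f x := sub_pos.1 hx.2
        refine le_min e.le ?_
        rw [lift_of_mem hx.1]
        exact le_min le_rfl (e.le.trans (QQ.le hf x)))
      hint.integrableOn (lift_nonneg hg0)
      (fun x hx => by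
        have e : env H (v a) x ≤ f x := (hle a ha1 x).trans (min_le_left _ _)
        refine le_min e (e.trans ?_)
        by_cases hxT : x ∈ T
        · rw [lift_of_mem hxT]
          exact le_min (sub_nonpos.1 (not_lt.1 fun h => hx ⟨hxT, h⟩)) (QQ.le hf x)
        · rw [lift_of_not hxT]; exact QQ.le hf x)
      (fun x hx => by
        have e : O b (π x) < f x := sub_pos.1 hx.2
        have e' : G b (π x) ≤ v b x := le_min ((min_le_left _ _).trans e.le) (lift_of_mem hx.1).ge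
        rw [lift_of_mem hx.1]
        exact sub_le_sub ((hle a ha1 x).trans (hvO a x hx.1)) e')
    have e2 := setIntegral_le_integral (s := T ∩ (fun x => f x - O b (π x)) ⁻¹' Ioi 0) hint
      (Eventually.of_forall (lift_nonneg hg0))
    set Λ : Cn p → ℝ := fun w =>
      c * L0 N * ‖sh U ν s b‖ ^ 2 / max (‖sh U ν s b (w - y)‖ ^ 2) 1 with hΛ
    have hΛ0 : ∀ w, 0 ≤ Λ w := fun w => by positivity
    have e3 := (hvol T T _ (O b) g Λ hF hT.op (subset_inter subset_rfl subset_rfl)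
      (fun _ _ => rfl) (sp_mdl _ y K hc)
      (continuous_const.div (((aff_smooth _ y).continuous.norm.pow 2).max continuous_const)
        fun w => by positivity) hΛ0 (fun w u => (lvE_mdl_bd _ y K hc w u).2) hgc hg0 hg1
      fun x hx _ => hx).2
    have hmh : ∀ w, 0 ≤ mh (fun _ => O b) w := fun w =>
      mh_nonneg fun _ => (sp_mdl (N := N) _ y K hc).2 w (mem_univ _)
    have e4 : ∫ w, g w * mh (fun _ => O b) w ≤ _ :=
      (integral_mono_of_nonneg (Eventually.of_forall fun w => mul_nonneg (hg0 w) (hmh w))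
        (int_r ((hOc a).sub (hOc b)) (cont_mh fun _ => mdl_smooth c _ y K)
          (mh_cpt hp (jd_sh hU b)))
        (Eventually.of_forall fun w => mul_le_mul_of_nonneg_right (hgO w) (hmh w))).trans
        (int_ob hp hU hν hc hab hd)
    have e5 := hsm g Λ (c * ((b - a) * m)) hg0 (fun w => (hgO w).trans (ob_le hν hc hab w))
      (fun w hw => by
        have e := (min_le_left r ((1 - ‖y‖) / 2)).trans hw
        simp only [hg, hG0 a ha1 w e, hG0 b hb w e, sub_self]) hΛ0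
      (fun w => by
        have k1 := sh_low (U := U) (s := s) hν (ha.trans hab) hb (w - y)
        have k2 := sh_norm (U := U) (s := s) hν (ha.trans hab)
        have k3 := mul_le_mul_of_nonneg_left (hlow (w - y)) (Real.exp_pos s).le
        have k4 := mul_le_mul_of_nonneg_left (le_max_left (‖sh U ν s b (w - y)‖ ^ 2) 1)
          (Real.exp_pos m).le
        simp only [hΛ]
        rw [div_mul_eq_mul_div, div_le_div_iff₀ (by positivity) hκ]
        have k5 : ‖sh U ν s b‖ ^ 2 * (κ * ‖w - y‖ ^ 2) ≤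
            ‖U‖ ^ 2 * (Real.exp m * max (‖sh U ν s b (w - y)‖ ^ 2) 1) := by
          refine (mul_le_mul_of_nonneg_right k2 (by positivity)).trans ?_
          rw [mul_comm (Real.exp s), mul_assoc]
          exact mul_le_mul_of_nonneg_left (by linarith) (by positivity)
        have k6 := mul_le_mul_of_nonneg_left k5 (show 0 ≤ c * L0 N by positivity)
        linarith)
    have e6 : C * (c * ((b - a) * m) * (η / (C * (c * m) + 1))) ≤ η * (b - a) := by
      have k1 : C * (c * m) / (C * (c * m) + 1) ≤ 1 :=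
        div_le_one_of_le₀ (by linarith) (by positivity)
      have k2 := mul_le_mul_of_nonneg_left k1 (mul_nonneg hη.le (sub_nonneg.2 hab))
      refine le_trans (le_of_eq ?_) (k2.trans_eq (mul_one _))
      ring
    have e7 := mul_le_mul_of_nonneg_left e4 hV0
    have e8 := mul_le_mul_of_nonneg_left e5 hC
    rw [En_sub hH (hpp a ha1) (hpp b hb)]
    unfold MAo at e1 e3
    linarith
  have fin := subdiv (F := fun τ => -En H (env H (v τ)) - (V * k1 p * c ^ (p + 1) * m + η) * τ)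
    (C := V * c ^ (p + 1) * C2 N p m) zero_le_one fun a b ha hab hb hd => by
      linarith [key a b ha hab hb hd]
  have hf0 : En H f ≤ En H (env H (v 0)) :=
    En_mono hH hf.1 (hpp 0 zero_le_one) (le_env hf.1.qp fun x => le_min le_rfl (by
      by_cases hxT : x ∈ T
      · rw [lift_of_mem hxT]; exact le_min (h0 x hxT) (QQ.le hf x)
      · rw [lift_of_not hxT]; exact QQ.le hf x))
  have hgf : env H (v 1) ≤ f := fun x => (hle 1 le_rfl x).trans (min_le_left _ _)
  refine ⟨env H (v 1), ⟨hpp 1 le_rfl, hgf.trans hf.2⟩, hgf, fun x hx =>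
    ((hle 1 le_rfl x).trans (hvO 1 x hx)).trans (min_le_left _ _), ?_⟩
  simp only [mul_one, mul_zero] at fin
  linarith

end

end Crest.Agent.X261.Law
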